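import Vale.Agent.P111.L1.Meas

/-! Operators from a space with dual of finite cotype into `L_1(μ; Y)`, `Y` of type `p₀ > 1`. -/

namespace Vale.Agent.P111.L1

open Vale.Agent.P111 MeasureTheory

theorem pexp_den_pos {r p₀ : ℝ} (hr : 2 ≤ r) (hp₀ : 1 < p₀) : 0 < r * p₀ - p₀ + 1 := by
  nlinarith

theorem pexp_pos {r p₀ : ℝ} (hr : 2 ≤ r) (hp₀ : 1 < p₀) : 0 < pexp r p₀ := by
  have := pexp_den_pos hr hp₀
  unfold pexp; positivity

theorem one_lt_pexp {r p₀ : ℝ} (hr : 2 ≤ r) (hp₀ : 1 < p₀) : 1 < pexp r p₀ := by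
  unfold pexp
  rw [one_lt_div (pexp_den_pos hr hp₀)]
  linarith

theorem pexp_le_two {r p₀ : ℝ} (hr : 2 ≤ r) (hp₀ : 1 < p₀) : pexp r p₀ ≤ 2 := by
  unfold pexp
  rw [div_le_iff₀ (pexp_den_pos hr hp₀)]
  nlinarith

theorem avg_add_const {Ω : Type*} [Fintype Ω] (a : Ω → ℝ) {δ : ℝ}
    (hδ : 0 ≤ δ) (h : Ω → ℝ) (h0 : ∀ ω, 0 ≤ h ω) (hle : ∀ ω, h ω ≤ a ω + δ) :
    (avg fun ω => h ω ^ 2) ^ (1 / 2 : ℝ) ≤ (avg fun ω => a ω ^ 2) ^ (1 / 2 : ℝ) + δ := by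
  have m := minkowski (Finset.univ : Finset Bool)
    (fun b (ω : Ω) => if b then a ω else δ)
  simp only [Fintype.sum_bool, if_true] at m
  have h1 : (avg fun ω => h ω ^ 2) ^ (1 / 2 : ℝ) ≤
      (avg fun ω => (a ω + δ) ^ 2) ^ (1 / 2 : ℝ) :=
    Real.rpow_le_rpow (avg_nonneg fun _ => by positivity)
      (avg_mono fun ω => pow_le_pow_left₀ (h0 ω) (hle ω) 2) (by norm_num)
  have h2 : (avg fun _ : Ω => δ ^ 2) ^ (1 / 2 : ℝ) ≤ δ := by
    calc (avg fun _ : Ω => δ ^ 2) ^ (1 / 2 : ℝ) ≤ (δ ^ 2) ^ (1 / 2 : ℝ) :=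
          Real.rpow_le_rpow (avg_nonneg fun _ => by positivity)
            (avg_const_le (by positivity)) (by norm_num)
      _ = δ := by rw [← Real.sqrt_eq_rpow, Real.sqrt_sq hδ]
  refine h1.trans ?_
  refine le_trans ?_ (add_le_add_right h2 _)
  simpa using m

variable {Ω : Type*} [MeasurableSpace Ω] {μ : Measure Ω}
variable {X Y : Type*} [NormedAddCommGroup X] [NormedSpace ℝ X]
  [NormedAddCommGroup Y] [NormedSpace ℝ Y] [CompleteSpace Y]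

/-- The main inequality. -/
theorem operator_type {r p₀ C T : ℝ} (hr : 2 ≤ r) (hp₀ : 1 < p₀) (hC : 0 ≤ C) (hT : 0 ≤ T)
    (hX : CotypeWith r C (X →L[ℝ] ℝ)) (hY : TypeWith p₀ T Y) (J : X →L[ℝ] Lp Y 1 μ)
    {n : ℕ} (x : Fin n → X) :
    (avg fun ε : Fin n → ℤˣ => ‖J (∑ i, sg (ε i) • x i)‖ ^ 2) ^ (1 / 2 : ℝ) ≤
      T * C ^ (1 - 1 / p₀) * ‖J‖ * (∑ i, ‖x i‖ ^ pexp r p₀) ^ (1 / pexp r p₀) := by
  refine le_of_forall_pos_le_add fun δ hδ => ?_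
  obtain ⟨F, L, hL1, hL2⟩ := exists_finite_approx J x hδ
  have hr1 : 1 < r := by linarith
  have hrr := Real.HolderConjugate.conjExponent hr1
  have hpe : pexp r p₀ * (1 + (p₀ - 1) / r.conjExponent) = p₀ := by
    have h1 := pexp_den_pos hr hp₀
    have h2 : r - 1 ≠ 0 := by linarith
    have h3 : r ≠ 0 := by linarith
    rw [Real.conjExponent, pexp]
    have e : 1 + (p₀ - 1) / (r / (r - 1)) = (r * p₀ - p₀ + 1) / r := by
      field_simp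
      ring
    rw [e, div_mul_div_comm, div_eq_iff (mul_ne_zero h1.ne' h3)]
    ring
  have h := finite_main hrr hp₀ (pexp_pos hr hp₀) hpe hC (norm_nonneg J) hT hX hY L hL1 x
  have hc : ∀ ε : Fin n → ℤˣ, ‖J (∑ i, sg (ε i) • x i)‖ ≤
      ∑ b, ‖L b (∑ i, sg (ε i) • x i)‖ + δ := fun ε =>
    hL2 (fun i => sg (ε i)) fun i => (abs_sg _).le
  have := avg_add_const (fun ε : Fin n → ℤˣ => ∑ b, ‖L b (∑ i, sg (ε i) • x i)‖)
    hδ.le
    (fun ε => ‖J (∑ i, sg (ε i) • x i)‖) (fun _ => norm_nonneg _) hc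
  linarith


theorem exists_nonneg_type {p T : ℝ} {X : Type*} [NormedAddCommGroup X] [NormedSpace ℝ X]
    (h : TypeWith p T X) : TypeWith p (max T 0) X := fun n y =>
  (h n y).trans (mul_le_mul_of_nonneg_right (le_max_left _ _) (by positivity))

theorem exists_nonneg_cotype {r C : ℝ} {X : Type*} [NormedAddCommGroup X] [NormedSpace ℝ X]
    (h : CotypeWith r C X) : CotypeWith r (max C 0) X := fun n y =>
  (h n y).trans (mul_le_mul_of_nonneg_right (le_max_left _ _)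
    (Real.rpow_nonneg (avg_nonneg fun _ => by positivity) _))

/-- A space which is locally seen by operators into spaces `L_1(μ; Y)` has type. -/
theorem type_of_local {r p₀ C T D : ℝ} (hr : 2 ≤ r) (hp₀ : 1 < p₀) (hC : 0 ≤ C) (hT : 0 ≤ T)
    (hX : CotypeWith r C (X →L[ℝ] ℝ))
    (hloc : ∀ (n : ℕ) (x : Fin n → X) (δ : ℝ), 0 < δ →
      ∃ (Ω : Type*) (_ : MeasurableSpace Ω) (μ : Measure Ω) (Y : Type*)
        (_ : NormedAddCommGroup Y) (_ : NormedSpace ℝ Y) (_ : CompleteSpace Y)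
        (J : X →L[ℝ] Lp Y 1 μ), TypeWith p₀ T Y ∧ ‖J‖ ≤ D ∧
          ∀ c : Fin n → ℝ, (∀ i, |c i| ≤ 1) →
            ‖∑ i, c i • x i‖ ≤ ‖J (∑ i, c i • x i)‖ + δ) :
    TypeWith (pexp r p₀) (T * C ^ (1 - 1 / p₀) * D) X := by
  intro n x
  refine le_of_forall_pos_le_add fun δ hδ => ?_
  obtain ⟨Ω, _, μ, Y, _, _, _, J, hY, hJ, hJx⟩ := hloc n x δ hδ
  have h := operator_type hr hp₀ hC hT hX hY J x
  have h2 := avg_add_const (fun ε : Fin n → ℤˣ => ‖J (∑ i, sg (ε i) • x i)‖) hδ.le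
    (fun ε => ‖∑ i, sg (ε i) • x i‖) (fun _ => norm_nonneg _)
    (fun ε => hJx (fun i => sg (ε i)) fun i => (abs_sg _).le)
  have h3 : T * C ^ (1 - 1 / p₀) * ‖J‖ * (∑ i, ‖x i‖ ^ pexp r p₀) ^ (1 / pexp r p₀) ≤
      T * C ^ (1 - 1 / p₀) * D * (∑ i, ‖x i‖ ^ pexp r p₀) ^ (1 / pexp r p₀) := by
    have : 0 ≤ T * C ^ (1 - 1 / p₀) := by positivity
    gcongr
  linarith

end Vale.Agent.P111.L1
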