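import Vale.Agent.P111.L1.Defs
import Mathlib.Analysis.Normed.Module.HahnBanach
import Mathlib.Analysis.MeanInequalities

/-! Finite (discrete) form of the theorem on operators into `L_1(Y)`. -/

namespace Vale.Agent.P111.L1

open Vale.Agent.P111

theorem avg_real {Ω : Type*} [Fintype Ω] (f : Ω → ℝ) :
    avg f = (Fintype.card Ω : ℝ)⁻¹ * ∑ ω, f ω := rfl

theorem avg_nonneg {Ω : Type*} [Fintype Ω] {f : Ω → ℝ} (h : ∀ ω, 0 ≤ f ω) : 0 ≤ avg f := by
  rw [avg_real]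
  exact mul_nonneg (by positivity) (Finset.sum_nonneg fun ω _ => h ω)

theorem avg_mono {Ω : Type*} [Fintype Ω] {f g : Ω → ℝ} (h : ∀ ω, f ω ≤ g ω) :
    avg f ≤ avg g := by
  rw [avg_real, avg_real]
  exact mul_le_mul_of_nonneg_left (Finset.sum_le_sum fun ω _ => h ω) (by positivity)

theorem avg_const_le {Ω : Type*} [Fintype Ω] {c : ℝ} (hc : 0 ≤ c) :
    avg (fun _ : Ω => c) ≤ c := by
  rw [avg_real, Finset.sum_const, nsmul_eq_mul, Finset.card_univ, ← mul_assoc]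
  rcases Nat.eq_zero_or_pos (Fintype.card Ω) with h | h
  · simp [h, hc]
  · rw [inv_mul_cancel₀ (by positivity), one_mul]

theorem abs_sg (u : ℤˣ) : |sg u| = 1 := by
  rcases Int.units_eq_one_or u with h | h <;> simp [h, sg]

/-- Minkowski's inequality for the normalised `L_2` norm on a finite set. -/
theorem minkowski {Ω ι : Type*} [Fintype Ω] (s : Finset ι) (h : ι → Ω → ℝ) :
    (avg fun ω => (∑ b ∈ s, h b ω) ^ 2) ^ (1 / 2 : ℝ) ≤
      ∑ b ∈ s, (avg fun ω => (h b ω) ^ 2) ^ (1 / 2 : ℝ) := by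
  classical
  have key : ∀ f : Ω → ℝ, (avg fun ω => (f ω) ^ 2) ^ (1 / 2 : ℝ) =
      ((Fintype.card Ω : ℝ)⁻¹) ^ (1 / 2 : ℝ) * ‖(WithLp.toLp 2 f : EuclideanSpace ℝ Ω)‖ := by
    intro f
    rw [avg_real, Real.mul_rpow (by positivity) (Finset.sum_nonneg fun _ _ => by positivity),
      EuclideanSpace.norm_eq, Real.sqrt_eq_rpow]
    simp
  rw [key]
  simp_rw [key]
  rw [← Finset.mul_sum]
  refine mul_le_mul_of_nonneg_left ?_ (by positivity)
  have : (WithLp.toLp 2 (fun ω => ∑ b ∈ s, h b ω) : EuclideanSpace ℝ Ω) =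
      ∑ b ∈ s, (WithLp.toLp 2 (h b) : EuclideanSpace ℝ Ω) := by
    ext ω
    simp
  rw [this]
  exact norm_sum_le _ _

variable {X Y F : Type*} [NormedAddCommGroup X] [NormedSpace ℝ X]
  [NormedAddCommGroup Y] [NormedSpace ℝ Y] [Fintype F]

/-- The inequality `Z` has cotype `r` with constant `C`. -/
def CotypeWith (r C : ℝ) (Z : Type*) [NormedAddCommGroup Z] [NormedSpace ℝ Z] : Prop :=
  ∀ (n : ℕ) (y : Fin n → Z),
    (∑ i, ‖y i‖ ^ r) ^ (1 / r) ≤
      C * (avg fun ε : Fin n → ℤˣ => ‖∑ i, sg (ε i) • y i‖ ^ 2) ^ (1 / 2 : ℝ)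

theorem max_est {r r' C Λ : ℝ} (hrr : r.HolderConjugate r') (hC : 0 ≤ C) (hΛ0 : 0 ≤ Λ)
    (hX : CotypeWith r C (X →L[ℝ] ℝ)) (L : F → X →L[ℝ] Y)
    (hΛ : ∀ x, ∑ b, ‖L b x‖ ≤ Λ * ‖x‖) {n : ℕ} (x : Fin n → X) (i : F → Fin n) :
    ∑ b, ‖L b (x (i b))‖ ≤ C * Λ * (∑ j, ‖x j‖ ^ r') ^ (1 / r') := by
  classical
  choose ψ hψ1 hψ2 using fun b : F => exists_dual_vector'' ℝ (L b (x (i b)))
  set φ : Fin n → X →L[ℝ] ℝ := fun j => ∑ b, if i b = j then (ψ b).comp (L b) else 0 with hφ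
  have hsum : ∀ (ε : Fin n → ℝ) (u : X), (∑ j, ε j • φ j) u = ∑ b, ε (i b) * ψ b (L b u) := by
    intro ε u
    simp only [hφ, _root_.sum_apply, _root_.smul_apply, smul_eq_mul]
    simp_rw [Finset.mul_sum]
    rw [Finset.sum_comm]
    refine Finset.sum_congr rfl fun b _ => ?_
    rw [Finset.sum_eq_single (i b)]
    · simp
    · intro j _ hj
      simp [Ne.symm hj]
    · simp
  have hnorm : ∀ ε : Fin n → ℤˣ, ‖∑ j, sg (ε j) • φ j‖ ≤ Λ := by
    intro ε
    refine ContinuousLinearMap.opNorm_le_bound _ hΛ0 fun u => ?_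
    rw [hsum (fun j => sg (ε j)) u, Real.norm_eq_abs]
    refine (Finset.abs_sum_le_sum_abs _ _).trans (le_trans (Finset.sum_le_sum fun b _ => ?_) (hΛ u))
    rw [abs_mul, abs_sg, one_mul, ← Real.norm_eq_abs]
    calc ‖ψ b (L b u)‖ ≤ ‖ψ b‖ * ‖L b u‖ := (ψ b).le_opNorm _
      _ ≤ 1 * ‖L b u‖ := mul_le_mul_of_nonneg_right (hψ1 b) (norm_nonneg _)
      _ = ‖L b u‖ := one_mul _
  have havg : (avg fun ε : Fin n → ℤˣ => ‖∑ j, sg (ε j) • φ j‖ ^ 2) ^ (1 / 2 : ℝ) ≤ Λ := by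
    have h1 : (avg fun ε : Fin n → ℤˣ => ‖∑ j, sg (ε j) • φ j‖ ^ 2) ≤ Λ ^ 2 :=
      (avg_mono fun ε => pow_le_pow_left₀ (norm_nonneg _) (hnorm ε) 2).trans
        (avg_const_le (by positivity))
    calc _ ≤ (Λ ^ 2) ^ (1 / 2 : ℝ) :=
          Real.rpow_le_rpow (avg_nonneg fun _ => by positivity) h1 (by norm_num)
      _ = Λ := by
          rw [← Real.sqrt_eq_rpow, Real.sqrt_sq hΛ0]
  have hcot : (∑ j, ‖φ j‖ ^ r) ^ (1 / r) ≤ C * Λ :=
    (hX n φ).trans (mul_le_mul_of_nonneg_left havg hC)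
  have heq : ∑ b, ‖L b (x (i b))‖ = ∑ j, φ j (x j) := by
    have : ∑ j, φ j (x j) = ∑ b, ψ b (L b (x (i b))) := by
      simp only [hφ, _root_.sum_apply]
      rw [Finset.sum_comm]
      refine Finset.sum_congr rfl fun b _ => ?_
      rw [Finset.sum_eq_single (i b)]
      · simp
      · intro j _ hj
        simp [Ne.symm hj]
      · simp
    rw [this]
    refine Finset.sum_congr rfl fun b _ => ?_
    have := hψ2 b
    simpa using this.symm
  rw [heq]
  calc ∑ j, φ j (x j) ≤ ∑ j, ‖φ j‖ * ‖x j‖ :=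
        Finset.sum_le_sum fun j _ => (le_abs_self _).trans ((φ j).le_opNorm _)
    _ ≤ (∑ j, |‖φ j‖| ^ r) ^ (1 / r) * (∑ j, |‖x j‖| ^ r') ^ (1 / r') :=
        Real.inner_le_Lp_mul_Lq _ _ _ hrr
    _ = (∑ j, ‖φ j‖ ^ r) ^ (1 / r) * (∑ j, ‖x j‖ ^ r') ^ (1 / r') := by simp
    _ ≤ C * Λ * (∑ j, ‖x j‖ ^ r') ^ (1 / r') :=
        mul_le_mul_of_nonneg_right hcot (by positivity)


/-- Hölder's inequality in the form `∑ m^(1-θ) l^θ ≤ (∑ m)^(1-θ) (∑ l)^θ`, `θ = 1 / p0`. -/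
theorem holder_split {p0 : ℝ} (hp0 : 1 < p0) (m l : F → ℝ) (hm : ∀ b, 0 ≤ m b)
    (hl : ∀ b, 0 ≤ l b) :
    ∑ b, (m b ^ (p0 - 1) * l b) ^ (1 / p0) ≤
      (∑ b, m b) ^ (1 - 1 / p0) * (∑ b, l b) ^ (1 / p0) := by
  have hp0' : 0 < p0 := by linarith
  have hconj : (p0 / (p0 - 1)).HolderConjugate p0 := by
    have := (Real.HolderConjugate.conjExponent hp0).symm
    simpa [Real.conjExponent] using this
  have h := Real.inner_le_Lp_mul_Lq (Finset.univ : Finset F) (fun b => m b ^ (1 - 1 / p0))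
    (fun b => l b ^ (1 / p0)) hconj
  have e1 : (1 - 1 / p0) * (p0 / (p0 - 1)) = 1 := by
    have : p0 - 1 ≠ 0 := by linarith
    field_simp
  have e2 : 1 / (p0 / (p0 - 1)) = 1 - 1 / p0 := by
    have : p0 - 1 ≠ 0 := by linarith
    field_simp
  have f1 : ∀ b, |m b ^ (1 - 1 / p0)| ^ (p0 / (p0 - 1)) = m b := by
    intro b
    rw [abs_of_nonneg (Real.rpow_nonneg (hm b) _), ← Real.rpow_mul (hm b), e1, Real.rpow_one]
  have f2 : ∀ b, |l b ^ (1 / p0)| ^ p0 = l b := by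
    intro b
    rw [abs_of_nonneg (Real.rpow_nonneg (hl b) _), ← Real.rpow_mul (hl b),
      one_div_mul_cancel hp0'.ne', Real.rpow_one]
  simp_rw [f1, f2, e2] at h
  refine le_trans (le_of_eq ?_) h
  refine Finset.sum_congr rfl fun b _ => ?_
  rw [Real.mul_rpow (Real.rpow_nonneg (hm b) _) (hl b), ← Real.rpow_mul (hm b)]
  congr 2
  field_simp

theorem sum_lp_le {r r' p0 p C Λ : ℝ} (hrr : r.HolderConjugate r') (hp0 : 1 < p0)
    (hp : 0 < p) (hpe : p * (1 + (p0 - 1) / r') = p0) (hC : 0 ≤ C) (hΛ0 : 0 ≤ Λ)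
    (hX : CotypeWith r C (X →L[ℝ] ℝ)) (L : F → X →L[ℝ] Y)
    (hΛ : ∀ x, ∑ b, ‖L b x‖ ≤ Λ * ‖x‖) {n : ℕ} (x : Fin n → X) :
    ∑ b, (∑ i, ‖L b (x i)‖ ^ p0) ^ (1 / p0) ≤
      C ^ (1 - 1 / p0) * Λ * (∑ i, ‖x i‖ ^ p) ^ (1 / p) := by
  classical
  have hp0' : 0 < p0 := by linarith
  have hr' : 0 < r' := hrr.symm.pos
  rcases Nat.eq_zero_or_pos n with h0 | hn
  · subst h0
    simp only [Finset.univ_eq_empty, Finset.sum_empty]
    rw [Real.zero_rpow (by positivity), Real.zero_rpow (by positivity)]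
    simp
  have hne : (Finset.univ : Finset (Fin n)).Nonempty := ⟨⟨0, hn⟩, Finset.mem_univ _⟩
  set s : ℝ := p / r' with hs
  -- the maximising index
  choose i _ hi using fun b : F => Finset.exists_max_image (Finset.univ : Finset (Fin n))
    (fun j => ‖x j‖ ^ (s - 1) * ‖L b (x j)‖) hne
  set m : F → ℝ := fun b => ‖x (i b)‖ ^ (s - 1) * ‖L b (x (i b))‖ with hm
  set l : F → ℝ := fun b => ∑ j, ‖x j‖ ^ (p - 1) * ‖L b (x j)‖ with hl
  have hm0 : ∀ b, 0 ≤ m b := fun b => by positivity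
  have hl0 : ∀ b, 0 ≤ l b := fun b => Finset.sum_nonneg fun j _ => by positivity
  have hexp : (s - 1) * (p0 - 1) + (p - 1) = 0 := by
    have : p / r' * (p0 - 1) + p = p0 := by
      have := hpe
      field_simp at this ⊢
      linarith
    rw [hs]; linarith
  -- first claim
  have claim1 : ∀ b, ∑ j, ‖L b (x j)‖ ^ p0 ≤ m b ^ (p0 - 1) * l b := by
    intro b
    rw [hl, Finset.mul_sum]
    refine Finset.sum_le_sum fun j _ => ?_
    rcases eq_or_ne (x j) 0 with hx | hx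
    · rw [hx]
      simp only [map_zero, norm_zero]
      rw [Real.zero_rpow hp0'.ne']
      simp
    · have ha : 0 < ‖x j‖ := norm_pos_iff.mpr hx
      have hmj : ‖x j‖ ^ (s - 1) * ‖L b (x j)‖ ≤ m b := hi b j (Finset.mem_univ _)
      calc ‖L b (x j)‖ ^ p0
          = (‖x j‖ ^ (s - 1) * ‖L b (x j)‖) ^ (p0 - 1) * (‖x j‖ ^ (p - 1) * ‖L b (x j)‖) := by
            rw [Real.mul_rpow (by positivity) (norm_nonneg _), ← Real.rpow_mul ha.le]
            have : ‖L b (x j)‖ ^ p0 = ‖L b (x j)‖ ^ (p0 - 1) * ‖L b (x j)‖ := by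
              rcases eq_or_ne (‖L b (x j)‖) 0 with h | h
              · rw [h, mul_zero, Real.zero_rpow hp0'.ne']
              · have hpos : 0 < ‖L b (x j)‖ := lt_of_le_of_ne (norm_nonneg _) (Ne.symm h)
                rw [Real.rpow_sub_one hpos.ne']
                field_simp
            rw [this]
            have h1 : ‖x j‖ ^ ((s - 1) * (p0 - 1)) * ‖x j‖ ^ (p - 1) = 1 := by
              rw [← Real.rpow_add ha, hexp, Real.rpow_zero]
            calc ‖L b (x j)‖ ^ (p0 - 1) * ‖L b (x j)‖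
                = (‖x j‖ ^ ((s - 1) * (p0 - 1)) * ‖x j‖ ^ (p - 1)) *
                    (‖L b (x j)‖ ^ (p0 - 1) * ‖L b (x j)‖) := by rw [h1, one_mul]
              _ = _ := by ring
        _ ≤ m b ^ (p0 - 1) * (‖x j‖ ^ (p - 1) * ‖L b (x j)‖) := by
            refine mul_le_mul_of_nonneg_right ?_ (by positivity)
            exact Real.rpow_le_rpow (by positivity) hmj (by linarith)
  -- second claim
  have claim2 : ∑ b, m b ≤ C * Λ * (∑ j, ‖x j‖ ^ p) ^ (1 / r') := by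
    have h := max_est hrr hC hΛ0 hX L hΛ (fun j => ‖x j‖ ^ (s - 1) • x j) i
    have e1 : ∀ b, ‖L b (‖x (i b)‖ ^ (s - 1) • x (i b))‖ = m b := by
      intro b
      rw [map_smul, norm_smul, Real.norm_of_nonneg (by positivity)]
    have e2 : ∀ j, ‖‖x j‖ ^ (s - 1) • x j‖ ^ r' = ‖x j‖ ^ p := by
      intro j
      rcases eq_or_ne (x j) 0 with hx | hx
      · rw [hx]
        simp only [smul_zero, norm_zero]
        rw [Real.zero_rpow hr'.ne', Real.zero_rpow hp.ne']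
      · have ha : 0 < ‖x j‖ := norm_pos_iff.mpr hx
        rw [norm_smul, Real.norm_of_nonneg (by positivity)]
        have : ‖x j‖ ^ (s - 1) * ‖x j‖ = ‖x j‖ ^ s := by
          rw [Real.rpow_sub_one ha.ne']
          field_simp
        rw [this, ← Real.rpow_mul ha.le, hs, div_mul_cancel₀ _ hr'.ne']
    simp_rw [e1, e2] at h
    exact h
  -- third claim
  have claim3 : ∑ b, l b ≤ Λ * ∑ j, ‖x j‖ ^ p := by
    rw [hl, Finset.sum_comm, Finset.mul_sum]
    refine Finset.sum_le_sum fun j _ => ?_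
    rw [← Finset.mul_sum]
    calc ‖x j‖ ^ (p - 1) * ∑ b, ‖L b (x j)‖ ≤ ‖x j‖ ^ (p - 1) * (Λ * ‖x j‖) :=
          mul_le_mul_of_nonneg_left (hΛ _) (by positivity)
      _ = Λ * ‖x j‖ ^ p := by
          rcases eq_or_ne (x j) 0 with hx | hx
          · rw [hx]
            simp only [norm_zero]
            rw [Real.zero_rpow hp.ne']
            simp
          · have ha : 0 < ‖x j‖ := norm_pos_iff.mpr hx
            rw [Real.rpow_sub_one ha.ne']
            field_simp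
  set S : ℝ := ∑ j, ‖x j‖ ^ p with hS
  have hS0 : 0 ≤ S := Finset.sum_nonneg fun j _ => by positivity
  calc ∑ b, (∑ j, ‖L b (x j)‖ ^ p0) ^ (1 / p0)
      ≤ ∑ b, (m b ^ (p0 - 1) * l b) ^ (1 / p0) :=
        Finset.sum_le_sum fun b _ => Real.rpow_le_rpow
          (Finset.sum_nonneg fun _ _ => by positivity) (claim1 b) (by positivity)
    _ ≤ (∑ b, m b) ^ (1 - 1 / p0) * (∑ b, l b) ^ (1 / p0) := holder_split hp0 m l hm0 hl0
    _ ≤ (C * Λ * S ^ (1 / r')) ^ (1 - 1 / p0) * (Λ * S) ^ (1 / p0) := by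
        have h1 : 0 ≤ 1 - 1 / p0 := by
          rw [sub_nonneg, div_le_one hp0']; exact hp0.le
        refine mul_le_mul ?_ ?_ (Real.rpow_nonneg (Finset.sum_nonneg fun b _ => hl0 b) _)
          (by positivity)
        · exact Real.rpow_le_rpow (Finset.sum_nonneg fun b _ => hm0 b) claim2 h1
        · exact Real.rpow_le_rpow (Finset.sum_nonneg fun b _ => hl0 b) claim3 (by positivity)
    _ = C ^ (1 - 1 / p0) * Λ * S ^ (1 / p) := by
        have hexp2 : 1 / r' * (1 - 1 / p0) + 1 / p0 = 1 / p := by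
          have h2 : p * (r' + (p0 - 1)) = p0 * r' := by
            have := hpe
            field_simp at this
            linarith
          field_simp
          linarith
        rw [Real.mul_rpow (by positivity) (by positivity), Real.mul_rpow hC hΛ0,
          Real.mul_rpow hΛ0 hS0, ← Real.rpow_mul hS0]
        rcases eq_or_lt_of_le hS0 with h | h
        · rw [← h]
          have h3 : (0:ℝ) ^ (1 / p0) = 0 := Real.zero_rpow (by positivity)
          have h4 : (0:ℝ) ^ (1 / p) = 0 := Real.zero_rpow (by positivity)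
          rw [h3, h4]
          ring
        · have h5 : S ^ (1 / p) = S ^ (1 / r' * (1 - 1 / p0)) * S ^ (1 / p0) := by
            rw [← Real.rpow_add h, hexp2]
          rw [h5]
          rcases eq_or_lt_of_le hΛ0 with h' | h'
          · rw [← h']
            rw [Real.zero_rpow (show (1 / p0 : ℝ) ≠ 0 by positivity)]
            ring
          · have h6 : Λ ^ (1 - 1 / p0) * Λ ^ (1 / p0) = Λ := by
              rw [← Real.rpow_add h']
              simp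
            calc C ^ (1 - 1 / p0) * Λ ^ (1 - 1 / p0) * S ^ (1 / r' * (1 - 1 / p0)) *
                  (Λ ^ (1 / p0) * S ^ (1 / p0))
                = C ^ (1 - 1 / p0) * (Λ ^ (1 - 1 / p0) * Λ ^ (1 / p0)) *
                  (S ^ (1 / r' * (1 - 1 / p0)) * S ^ (1 / p0)) := by ring
              _ = _ := by rw [h6]

/-- The finite form: `X → ℓ_1(F; Y)`. -/
theorem finite_main {r r' p0 p C Λ T : ℝ} (hrr : r.HolderConjugate r') (hp0 : 1 < p0)
    (hp : 0 < p) (hpe : p * (1 + (p0 - 1) / r') = p0) (hC : 0 ≤ C) (hΛ0 : 0 ≤ Λ) (hT : 0 ≤ T)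
    (hX : CotypeWith r C (X →L[ℝ] ℝ)) (hY : TypeWith p0 T Y) (L : F → X →L[ℝ] Y)
    (hΛ : ∀ x, ∑ b, ‖L b x‖ ≤ Λ * ‖x‖) {n : ℕ} (x : Fin n → X) :
    (avg fun ε : Fin n → ℤˣ => (∑ b, ‖L b (∑ i, sg (ε i) • x i)‖) ^ 2) ^ (1 / 2 : ℝ) ≤
      T * C ^ (1 - 1 / p0) * Λ * (∑ i, ‖x i‖ ^ p) ^ (1 / p) := by
  refine (minkowski Finset.univ fun b (ε : Fin n → ℤˣ) =>
    ‖L b (∑ i, sg (ε i) • x i)‖).trans ?_
  calc ∑ b, (avg fun ε : Fin n → ℤˣ => ‖L b (∑ i, sg (ε i) • x i)‖ ^ 2) ^ (1 / 2 : ℝ)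
      ≤ ∑ b, T * (∑ i, ‖L b (x i)‖ ^ p0) ^ (1 / p0) := by
        refine Finset.sum_le_sum fun b _ => ?_
        have h := hY n fun i => L b (x i)
        simpa [map_sum] using h
    _ = T * ∑ b, (∑ i, ‖L b (x i)‖ ^ p0) ^ (1 / p0) := by rw [Finset.mul_sum]
    _ ≤ T * (C ^ (1 - 1 / p0) * Λ * (∑ i, ‖x i‖ ^ p) ^ (1 / p)) :=
        mul_le_mul_of_nonneg_left (sum_lp_le hrr hp0 hp hpe hC hΛ0 hX L hΛ x) hT
    _ = _ := by ring

end Vale.Agent.P111.L1
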