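import Vale.Agent.P111.Defs
import Mathlib.MeasureTheory.Function.SimpleFuncDenseLp

/-! Definitions for the statements on spaces inside `L_1(μ; Y)`. -/

namespace Vale.Agent.P111.L1

open Vale.Agent.P111 MeasureTheory

/-- `Y` has type `p` with constant `T`. -/
def TypeWith (p T : ℝ) (Y : Type*) [NormedAddCommGroup Y] [NormedSpace ℝ Y] : Prop :=
  ∀ (n : ℕ) (y : Fin n → Y),
    (avg fun ε : Fin n → ℤˣ => ‖∑ i, sg (ε i) • y i‖ ^ 2) ^ (1 / 2 : ℝ) ≤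
      T * (∑ i, ‖y i‖ ^ p) ^ (1 / p)

/-- Every bounded operator `J` from `X` into `Z` has type `p` with constant `C ‖J‖`. -/
def OpsTypeWith (p C : ℝ) (X Z : Type*) [NormedAddCommGroup X] [NormedSpace ℝ X]
    [NormedAddCommGroup Z] [NormedSpace ℝ Z] : Prop :=
  ∀ (J : X →L[ℝ] Z) (n : ℕ) (x : Fin n → X),
    (avg fun ε : Fin n → ℤˣ => ‖∑ i, sg (ε i) • J (x i)‖ ^ 2) ^ (1 / 2 : ℝ) ≤
      C * ‖J‖ * (∑ i, ‖x i‖ ^ p) ^ (1 / p)

/-- `X` embeds into `Z` with distortion at most `D`. -/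
def EmbedsIn (D : ℝ) (X Z : Type*) [NormedAddCommGroup X] [NormedSpace ℝ X]
    [NormedAddCommGroup Z] [NormedSpace ℝ Z] : Prop :=
  ∃ J : X →L[ℝ] Z, ∀ x, ‖x‖ ≤ ‖J x‖ ∧ ‖J x‖ ≤ D * ‖x‖

/-- `X` has type `p`, for a given `p` with `1 < p ≤ 2`. -/
def HasType (p : ℝ) (X : Type*) [NormedAddCommGroup X] [NormedSpace ℝ X] : Prop :=
  1 < p ∧ p ≤ 2 ∧ ∃ T : ℝ, TypeWith p T X

/-- The exponent `p` with `1 / p' = 1 / (r p₀')`. -/
noncomputable def pexp (r p₀ : ℝ) : ℝ := r * p₀ / (r * p₀ - p₀ + 1)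

universe u v w

/-- `X` embeds, with distortion at most `D`, into `L_1(μ; Y)` for some measure `μ` and some
Banach space `Y` of type `p₀` with constant `T`. -/
def EmbedsL1 (p₀ T D : ℝ) (X : Type u) [NormedAddCommGroup X] [NormedSpace ℝ X] : Prop :=
  ∃ (Ω : Type w) (_ : MeasurableSpace Ω) (μ : Measure Ω) (Y : Type v)
    (_ : NormedAddCommGroup Y) (_ : NormedSpace ℝ Y) (_ : CompleteSpace Y),
    TypeWith p₀ T Y ∧ EmbedsIn D X (Lp Y 1 μ)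

end Vale.Agent.P111.L1
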