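import Vale.Agent.P111.L1.Core
import Mathlib.MeasureTheory.Function.SimpleFuncDenseLp
import Mathlib.MeasureTheory.SpecificCodomains.Pi
import Mathlib.MeasureTheory.Integral.Bochner.Set

/-! From `ℓ_1(F; Y)`, `F` finite, to `L_1(μ; Y)`. -/

namespace Vale.Agent.P111.L1

open Vale.Agent.P111 MeasureTheory

variable {Ω : Type*} [MeasurableSpace Ω] {μ : Measure Ω}
variable {X Y : Type*} [NormedAddCommGroup X] [NormedSpace ℝ X]
  [NormedAddCommGroup Y] [NormedSpace ℝ Y] [CompleteSpace Y]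

omit [NormedSpace ℝ Y] [CompleteSpace Y] in
theorem integrable_lp (f : Lp Y 1 μ) : Integrable (f : Ω → Y) μ :=
  L1.integrable_coeFn f

/-- Integration over a set, as a contraction on `L_1(μ; Y)`. -/
noncomputable def setInt (μ : Measure Ω) (Y : Type*) [NormedAddCommGroup Y] [NormedSpace ℝ Y]
    [CompleteSpace Y] (B : Set Ω) : Lp Y 1 μ →L[ℝ] Y :=
  LinearMap.mkContinuous
    { toFun := fun f => ∫ ω in B, f ω ∂μ
      map_add' := by
        intro f g
        rw [← integral_add (integrable_lp f).integrableOn (integrable_lp g).integrableOn]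
        refine integral_congr_ae (ae_restrict_of_ae ?_)
        filter_upwards [Lp.coeFn_add f g] with ω hω
        rw [hω, Pi.add_apply]
      map_smul' := by
        intro c f
        rw [RingHom.id_apply, ← integral_smul]
        refine integral_congr_ae (ae_restrict_of_ae ?_)
        filter_upwards [Lp.coeFn_smul c f] with ω hω
        rw [hω, Pi.smul_apply] }
    1 (by
      intro f
      rw [one_mul, L1.norm_eq_integral_norm]
      refine (norm_integral_le_integral_norm _).trans ?_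
      exact setIntegral_le_integral (integrable_lp f).norm
        (Filter.Eventually.of_forall fun ω => norm_nonneg _))

theorem setInt_apply (B : Set Ω) (f : Lp Y 1 μ) : setInt μ Y B f = ∫ ω in B, f ω ∂μ := rfl

theorem exists_finite_approx (J : X →L[ℝ] Lp Y 1 μ) {n : ℕ} (x : Fin n → X) {δ : ℝ}
    (hδ : 0 < δ) :
    ∃ (F : Finset (Fin n → Y)) (L : F → X →L[ℝ] Y),
      (∀ u, ∑ b, ‖L b u‖ ≤ ‖J‖ * ‖u‖) ∧
      ∀ c : Fin n → ℝ, (∀ i, |c i| ≤ 1) →
        ‖J (∑ i, c i • x i)‖ ≤ ∑ b, ‖L b (∑ i, c i • x i)‖ + δ := by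
  classical
  set f : Ω → Fin n → Y := fun ω i => (J (x i) : Ω → Y) ω with hf
  have hfint : Integrable f μ := Integrable.of_eval fun i => integrable_lp (J (x i))
  set η : ℝ := δ / (2 * n + 1) with hη
  have hη0 : 0 < η := by positivity
  obtain ⟨g, hg1, hg2⟩ := (memLp_one_iff_integrable.mpr hfint).exists_simpleFunc_eLpNorm_sub_lt
    ENNReal.one_ne_top (ENNReal.ofReal_pos.mpr hη0).ne'
  have hgint : Integrable (g : Ω → Fin n → Y) μ := memLp_one_iff_integrable.mp hg2
  have hfg : Integrable (fun ω => f ω - g ω) μ := hfint.sub hgint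
  have hfgη : ∫ ω, ‖f ω - g ω‖ ∂μ ≤ η := by
    rw [eLpNorm_one_eq_lintegral_enorm] at hg1
    rw [integral_norm_eq_lintegral_enorm hfg.aestronglyMeasurable]
    refine ENNReal.toReal_le_of_le_ofReal hη0.le ?_
    simpa using hg1.le
  -- the atoms
  set F : Finset (Fin n → Y) := g.range.filter (fun v => v ≠ 0) with hF
  set B : (Fin n → Y) → Set Ω := fun v => g ⁻¹' {v} with hB
  have hBm : ∀ v, MeasurableSet (B v) := fun v => g.measurableSet_fiber v
  have hBd : Set.PairwiseDisjoint (↑F : Set (Fin n → Y)) B := by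
    intro v _ w _ hvw
    refine Set.disjoint_left.mpr fun ω hv hw => hvw ?_
    rw [← (show g ω = v from hv), ← (show g ω = w from hw)]
  have hsumint : ∀ h : Ω → ℝ, (∀ ω, 0 ≤ h ω) → Integrable h μ →
      ∑ v ∈ F, ∫ ω in B v, h ω ∂μ ≤ ∫ ω, h ω ∂μ := by
    intro h h0 hi
    rw [← integral_biUnion_finset F (fun v _ => hBm v) hBd fun v _ => hi.integrableOn]
    exact setIntegral_le_integral hi (Filter.Eventually.of_forall h0)
  refine ⟨F, fun v => (setInt μ Y (B v)).comp J, ?_, ?_⟩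
  · intro u
    have h1 : ∑ b : F, ‖((setInt μ Y (B b)).comp J) u‖ =
        ∑ v ∈ F, ‖∫ ω in B v, (J u) ω ∂μ‖ := by
      rw [← Finset.sum_coe_sort F (fun v => ‖∫ ω in B v, (J u) ω ∂μ‖)]
      rfl
    rw [h1]
    calc ∑ v ∈ F, ‖∫ ω in B v, (J u) ω ∂μ‖ ≤ ∑ v ∈ F, ∫ ω in B v, ‖(J u) ω‖ ∂μ :=
          Finset.sum_le_sum fun v _ => norm_integral_le_integral_norm _
      _ ≤ ∫ ω, ‖(J u) ω‖ ∂μ := hsumint _ (fun _ => norm_nonneg _) (integrable_lp _).norm
      _ = ‖J u‖ := (L1.norm_eq_integral_norm _).symm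
      _ ≤ ‖J‖ * ‖u‖ := J.le_opNorm u
  · intro c hc
    set h : X := ∑ i, c i • x i with hh
    have hTle : ∀ v : Fin n → Y, ‖∑ i, c i • v i‖ ≤ n * ‖v‖ := by
      intro v
      calc ‖∑ i, c i • v i‖ ≤ ∑ i, ‖c i • v i‖ := norm_sum_le _ _
        _ ≤ ∑ _i : Fin n, ‖v‖ := by
            refine Finset.sum_le_sum fun i _ => ?_
            rw [norm_smul, Real.norm_eq_abs]
            calc |c i| * ‖v i‖ ≤ 1 * ‖v‖ :=
                  mul_le_mul (hc i) (norm_le_pi_norm v i) (norm_nonneg _) zero_le_one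
              _ = ‖v‖ := one_mul _
        _ = n * ‖v‖ := by simp
    have hTmeas : ∀ k : Ω → Fin n → Y, Integrable k μ →
        Integrable (fun ω => ∑ i, c i • k ω i) μ := by
      intro k hk
      exact integrable_finsetSum _ fun i _ => (hk.eval i).smul (c i)
    have hJh : (J h : Ω → Y) =ᵐ[μ] fun ω => ∑ i, c i • f ω i := by
      have e : J h = ∑ i, c i • J (x i) := by simp [hh, map_sum]
      rw [e]
      have e1 : ((∑ i, c i • J (x i) : Lp Y 1 μ) : Ω → Y) =ᵐ[μ]
          ∑ i, ((c i • J (x i) : Lp Y 1 μ) : Ω → Y) := Lp.coeFn_finsetSum _ _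
      have e2 : ∀ i, ((c i • J (x i) : Lp Y 1 μ) : Ω → Y) =ᵐ[μ] c i • (J (x i) : Ω → Y) :=
        fun i => Lp.coeFn_smul _ _
      filter_upwards [e1, ae_all_iff.mpr e2] with ω h1 h2
      rw [h1, Finset.sum_apply]
      exact Finset.sum_congr rfl fun i _ => h2 i
    have hd : Integrable (fun ω => ∑ i, c i • (f ω - g ω) i) μ := hTmeas _ hfg
    have hdle : ∫ ω, ‖∑ i, c i • (f ω - g ω) i‖ ∂μ ≤ n * η := by
      calc ∫ ω, ‖∑ i, c i • (f ω - g ω) i‖ ∂μ ≤ ∫ ω, n * ‖f ω - g ω‖ ∂μ :=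
            integral_mono hd.norm (hfg.norm.const_mul _) fun ω => hTle _
        _ = n * ∫ ω, ‖f ω - g ω‖ ∂μ := integral_const_mul _ _
        _ ≤ n * η := mul_le_mul_of_nonneg_left hfgη (by positivity)
    have hTg : Integrable (fun ω => ∑ i, c i • g ω i) μ := hTmeas _ hgint
    have hTf : Integrable (fun ω => ∑ i, c i • f ω i) μ := hTmeas _ hfint
    have step1 : ‖J h‖ ≤ ∫ ω, ‖∑ i, c i • g ω i‖ ∂μ + n * η := by
      rw [L1.norm_eq_integral_norm]
      calc ∫ ω, ‖(J h) ω‖ ∂μ = ∫ ω, ‖∑ i, c i • f ω i‖ ∂μ := by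
            refine integral_congr_ae ?_
            filter_upwards [hJh] with ω hω
            rw [hω]
        _ ≤ ∫ ω, (‖∑ i, c i • g ω i‖ + ‖∑ i, c i • (f ω - g ω) i‖) ∂μ := by
            refine integral_mono hTf.norm (hTg.norm.add hd.norm) fun ω => ?_
            refine le_trans (le_of_eq ?_) (norm_add_le _ _)
            congr 1
            rw [← Finset.sum_add_distrib]
            refine Finset.sum_congr rfl fun i _ => ?_
            rw [← smul_add, Pi.sub_apply]
            simp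
        _ = ∫ ω, ‖∑ i, c i • g ω i‖ ∂μ + ∫ ω, ‖∑ i, c i • (f ω - g ω) i‖ ∂μ :=
            integral_add hTg.norm hd.norm
        _ ≤ _ := by linarith
    have step2 : ∫ ω, ‖∑ i, c i • g ω i‖ ∂μ ≤ ∑ v ∈ F, ‖∫ ω in B v, ∑ i, c i • g ω i ∂μ‖ := by
      have hU : ∫ ω, ‖∑ i, c i • g ω i‖ ∂μ =
          ∫ ω in ⋃ v ∈ F, B v, ‖∑ i, c i • g ω i‖ ∂μ := by
        symm
        refine setIntegral_eq_integral_of_forall_compl_eq_zero fun ω hω => ?_
        have hz : g ω = 0 := by
          by_contra hne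
          refine hω ?_
          simp only [Set.mem_iUnion]
          exact ⟨g ω, by simp [hF, hne], rfl⟩
        simp [hz]
      rw [hU, integral_biUnion_finset F (fun v _ => hBm v) hBd fun v _ => hTg.norm.integrableOn]
      refine Finset.sum_le_sum fun v _ => le_of_eq ?_
      have e1 : ∫ ω in B v, ‖∑ i, c i • g ω i‖ ∂μ = ∫ ω in B v, ‖∑ i, c i • v i‖ ∂μ := by
        refine setIntegral_congr_fun (hBm v) fun ω hω => ?_
        have : g ω = v := hω
        simp only [this]
      have e2 : ∫ ω in B v, ∑ i, c i • g ω i ∂μ = ∫ ω in B v, ∑ i, c i • v i ∂μ := by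
        refine setIntegral_congr_fun (hBm v) fun ω hω => ?_
        have : g ω = v := hω
        simp only [this]
      rw [e1, e2, setIntegral_const, setIntegral_const, norm_smul, smul_eq_mul,
        Real.norm_of_nonneg measureReal_nonneg]
    have step3 : ∑ v ∈ F, ‖∫ ω in B v, ∑ i, c i • g ω i ∂μ‖ ≤
        ∑ v ∈ F, ‖∫ ω in B v, (J h) ω ∂μ‖ + n * η := by
      have : ∀ v ∈ F, ‖∫ ω in B v, ∑ i, c i • g ω i ∂μ‖ ≤
          ‖∫ ω in B v, (J h) ω ∂μ‖ + ∫ ω in B v, ‖∑ i, c i • (f ω - g ω) i‖ ∂μ := by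
        intro v _
        have e1 : ∫ ω in B v, (J h) ω ∂μ = ∫ ω in B v, ∑ i, c i • f ω i ∂μ :=
          integral_congr_ae (ae_restrict_of_ae hJh)
        have e2 : ∫ ω in B v, ∑ i, c i • g ω i ∂μ =
            ∫ ω in B v, (J h) ω ∂μ - ∫ ω in B v, ∑ i, c i • (f ω - g ω) i ∂μ := by
          rw [e1, ← integral_sub hTf.integrableOn hd.integrableOn]
          refine integral_congr_ae (Filter.Eventually.of_forall fun ω => ?_)
          simp only [Pi.sub_apply]
          rw [← Finset.sum_sub_distrib]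
          refine Finset.sum_congr rfl fun i _ => ?_
          rw [← smul_sub]
          simp
        rw [e2]
        refine (norm_sub_le _ _).trans ?_
        have := norm_integral_le_integral_norm (μ := μ.restrict (B v))
          (fun ω => ∑ i, c i • (f ω - g ω) i)
        linarith
      calc _ ≤ ∑ v ∈ F, (‖∫ ω in B v, (J h) ω ∂μ‖ +
            ∫ ω in B v, ‖∑ i, c i • (f ω - g ω) i‖ ∂μ) := Finset.sum_le_sum this
        _ = ∑ v ∈ F, ‖∫ ω in B v, (J h) ω ∂μ‖ +
            ∑ v ∈ F, ∫ ω in B v, ‖∑ i, c i • (f ω - g ω) i‖ ∂μ := Finset.sum_add_distrib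
        _ ≤ _ := by
            have := hsumint (fun ω => ‖∑ i, c i • (f ω - g ω) i‖) (fun _ => norm_nonneg _)
              hd.norm
            linarith
    have hfin : ∑ b : F, ‖((setInt μ Y (B b)).comp J) h‖ =
        ∑ v ∈ F, ‖∫ ω in B v, (J h) ω ∂μ‖ := by
      rw [← Finset.sum_coe_sort F (fun v => ‖∫ ω in B v, (J h) ω ∂μ‖)]
      rfl
    rw [hfin]
    have hηn : 2 * (n * η) ≤ δ := by
      have : 2 * (n * η) = δ * (2 * n / (2 * n + 1)) := by rw [hη]; ring
      rw [this]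
      have h1 : (2 * (n:ℝ) / (2 * n + 1)) ≤ 1 := by
        rw [div_le_one (by positivity)]; linarith
      nlinarith
    linarith

end Vale.Agent.P111.L1
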